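import Vale.Agent.Results.P075.DyadicTriangular

/-!
# P075, Q2: the dyadic triangular Hilbert form, with iterated integrals
-/

namespace Vale.Agent.Results.P075.DyadicIterated

open MeasureTheory Set

/-- The dyadic interval `[2^k n, 2^k (n+1))`, the member of `D_k` with index `n`. -/
def I (k : ℤ) (n : ℕ) : Set ℝ := Ico ((2 : ℝ) ^ k * n) ((2 : ℝ) ^ k * (n + 1))

/-- `h_I = 1` on the left half and `-1` on the right half of `I = I k n`, and `0` off `I`. -/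
noncomputable def h (k : ℤ) (n : ℕ) (x : ℝ) : ℝ :=
  if (2 : ℝ) ^ k * n ≤ x ∧ x < (2 : ℝ) ^ k * (n + 1 / 2) then 1
  else if (2 : ℝ) ^ k * (n + 1 / 2) ≤ x ∧ x < (2 : ℝ) ^ k * (n + 1) then -1 else 0

/-- `L_I(F₀,F₁,F₂) = 2^{-k} ∫_{I₀×I₁×I₂} F₀(x₀,x₁) F₁(x₁,x₂) F₂(x₂,x₀) ∏ h_{I_v}(x_v)` for the
triple of intervals of scale `k` with indices `n₀, n₁, n₂`. -/
noncomputable def L (F₀ F₁ F₂ : ℝ → ℝ → ℝ) (k : ℤ) (n₀ n₁ n₂ : ℕ) : ℝ :=
  (2 : ℝ) ^ (-k) * ∫ x₀ in I k n₀, ∫ x₁ in I k n₁, ∫ x₂ in I k n₂,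
    F₀ x₀ x₁ * F₁ x₁ x₂ * F₂ x₂ x₀ * (h k n₀ x₀ * h k n₁ x₁ * h k n₂ x₂)

/-- The norm of `L^3([0,∞)^2)`. -/
noncomputable def norm3 (F : ℝ → ℝ → ℝ) : ℝ :=
  (∫ x in Ici (0 : ℝ), ∫ y in Ici (0 : ℝ), |F x y| ^ 3) ^ ((1 : ℝ) / 3)

/-- `F` is real, measurable, bounded and of bounded support. -/
def Nice (F : ℝ → ℝ → ℝ) : Prop :=
  Measurable (Function.uncurry F) ∧ ∃ M : ℝ, ∀ x y, |F x y| ≤ M ∧ (M < |x| ∨ M < |y| → F x y = 0)

private theorem h_eq (k : ℤ) (n : ℕ) (x : ℝ) : h k n x = DyadicTriangular.hfun k n x := rfl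

private theorem nice_compact {F : ℝ → ℝ → ℝ} (hF : Nice F) :
    HasCompactSupport (Function.uncurry F) := by
  obtain ⟨-, M, hM⟩ := hF
  refine HasCompactSupport.intro (K := Icc (-M) M ×ˢ Icc (-M) M)
    (isCompact_Icc.prod isCompact_Icc) ?_
  rintro ⟨x, y⟩ hxy
  refine (hM x y).2 ?_
  by_contra hcon
  push Not at hcon
  exact hxy ⟨abs_le.mp hcon.1, abs_le.mp hcon.2⟩

private theorem meas_h (k : ℤ) (n : ℕ) : Measurable (h k n) := by
  unfold h
  refine Measurable.ite ?_ measurable_const (Measurable.ite ?_ measurable_const measurable_const)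
  · exact (measurableSet_Ico : MeasurableSet (Ico ((2 : ℝ) ^ k * n) ((2 : ℝ) ^ k * (n + 1 / 2))))
  · exact (measurableSet_Ico : MeasurableSet
      (Ico ((2 : ℝ) ^ k * (n + 1 / 2)) ((2 : ℝ) ^ k * (n + 1))))

private theorem abs_h_le (k : ℤ) (n : ℕ) (x : ℝ) : |h k n x| ≤ 1 := by
  unfold h
  split_ifs <;> simp

private theorem L_eq {F₀ F₁ F₂ : ℝ → ℝ → ℝ} (h₀ : Nice F₀) (h₁ : Nice F₁) (h₂ : Nice F₂)
    (k : ℤ) (n : DyadicTriangular.Triple) :
    L F₀ F₁ F₂ k n.1.1 n.1.2.1 n.1.2.2 =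
      DyadicTriangular.L (Function.uncurry F₀) (Function.uncurry F₁) (Function.uncurry F₂) k n := by
  unfold L DyadicTriangular.L
  congr 1
  obtain ⟨m₀, M₀, b₀⟩ := h₀
  obtain ⟨m₁, M₁, b₁⟩ := h₁
  obtain ⟨m₂, M₂, b₂⟩ := h₂
  set f : ℝ × ℝ × ℝ → ℝ := fun x => F₀ x.1 x.2.1 * F₁ x.2.1 x.2.2 * F₂ x.2.2 x.1 *
    (h k n.1.1 x.1 * h k n.1.2.1 x.2.1 * h k n.1.2.2 x.2.2) with hf
  have mf : Measurable f := by
    have e₀ : Measurable (fun x : ℝ × ℝ × ℝ => F₀ x.1 x.2.1) :=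
      m₀.comp (measurable_fst.prodMk (measurable_fst.comp measurable_snd))
    have e₁ : Measurable (fun x : ℝ × ℝ × ℝ => F₁ x.2.1 x.2.2) := m₁.comp measurable_snd
    have e₂ : Measurable (fun x : ℝ × ℝ × ℝ => F₂ x.2.2 x.1) :=
      m₂.comp ((measurable_snd.comp measurable_snd).prodMk measurable_fst)
    exact ((e₀.mul e₁).mul e₂).mul ((((meas_h _ _).comp measurable_fst).mul
      ((meas_h _ _).comp (measurable_fst.comp measurable_snd))).mul
      ((meas_h _ _).comp (measurable_snd.comp measurable_snd)))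
  have hM : ∀ x, ‖f x‖ ≤ M₀ * M₁ * M₂ := by
    intro x
    have c₀ := (b₀ x.1 x.2.1).1
    have c₁ := (b₁ x.2.1 x.2.2).1
    have c₂ := (b₂ x.2.2 x.1).1
    have p₀ : 0 ≤ M₀ := (abs_nonneg _).trans c₀
    have p₁ : 0 ≤ M₁ := (abs_nonneg _).trans c₁
    have p₂ : 0 ≤ M₂ := (abs_nonneg _).trans c₂
    have e₀ := abs_h_le k n.1.1 x.1
    have e₁ := abs_h_le k n.1.2.1 x.2.1
    have e₂ := abs_h_le k n.1.2.2 x.2.2
    rw [Real.norm_eq_abs, hf]
    simp only [abs_mul]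
    have q : |h k n.1.1 x.1| * |h k n.1.2.1 x.2.1| * |h k n.1.2.2 x.2.2| ≤ 1 := by
      calc |h k n.1.1 x.1| * |h k n.1.2.1 x.2.1| * |h k n.1.2.2 x.2.2| ≤ 1 * 1 * 1 := by
            gcongr
        _ = 1 := by norm_num
    calc |F₀ x.1 x.2.1| * |F₁ x.2.1 x.2.2| * |F₂ x.2.2 x.1| *
          (|h k n.1.1 x.1| * |h k n.1.2.1 x.2.1| * |h k n.1.2.2 x.2.2|)
        ≤ M₀ * M₁ * M₂ * 1 := by gcongr
      _ = M₀ * M₁ * M₂ := mul_one _
  have hfin : ∀ (k : ℤ) (n : ℕ), volume (I k n) < ⊤ := fun k n => by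
    unfold I
    rw [Real.volume_Ico]
    exact ENNReal.ofReal_lt_top
  have int3 : IntegrableOn f (I k n.1.1 ×ˢ I k n.1.2.1 ×ˢ I k n.1.2.2) volume := by
    refine Measure.integrableOn_of_bounded (M := M₀ * M₁ * M₂) ?_ mf.aestronglyMeasurable
      (Filter.Eventually.of_forall hM)
    rw [Measure.volume_eq_prod, Measure.prod_prod, Measure.volume_eq_prod, Measure.prod_prod]
    exact (ENNReal.mul_lt_top (hfin _ _) (ENNReal.mul_lt_top (hfin _ _) (hfin _ _))).ne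
  have int2 : ∀ x, IntegrableOn (fun y => f (x, y)) (I k n.1.2.1 ×ˢ I k n.1.2.2) volume := by
    intro x
    refine Measure.integrableOn_of_bounded (M := M₀ * M₁ * M₂) ?_
      (mf.comp measurable_prodMk_left).aestronglyMeasurable
      (Filter.Eventually.of_forall fun y => hM _)
    rw [Measure.volume_eq_prod, Measure.prod_prod]
    exact (ENNReal.mul_lt_top (hfin _ _) (hfin _ _)).ne
  have e1 : ∫ x in I k n.1.1 ×ˢ I k n.1.2.1 ×ˢ I k n.1.2.2, f x =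
      ∫ x₀ in I k n.1.1, ∫ x₁ in I k n.1.2.1, ∫ x₂ in I k n.1.2.2, f (x₀, x₁, x₂) := by
    rw [Measure.volume_eq_prod] at int3 ⊢
    rw [setIntegral_prod f int3]
    refine integral_congr_ae (Filter.Eventually.of_forall fun x => ?_)
    have := int2 x
    rw [Measure.volume_eq_prod] at this ⊢
    exact setIntegral_prod _ this
  exact e1.symm

private theorem norm3_eq {F : ℝ → ℝ → ℝ} (hF : Nice F) :
    norm3 F = DyadicTriangular.norm3 (Function.uncurry F) := by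
  unfold norm3 DyadicTriangular.norm3
  congr 1
  have hc := nice_compact hF
  obtain ⟨m, M, b⟩ := hF
  have hint : Integrable (fun p : ℝ × ℝ => |Function.uncurry F p| ^ 3) volume := by
    have h1 : MemLp (Function.uncurry F) 3 (volume : Measure (ℝ × ℝ)) :=
      hc.memLp_of_bound m.aestronglyMeasurable M
        (Filter.Eventually.of_forall fun p => (b p.1 p.2).1)
    have h2 := h1.integrable_norm_pow (p := 3) (by norm_num)
    exact h2
  have hion : IntegrableOn (fun p : ℝ × ℝ => |Function.uncurry F p| ^ 3)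
      (Ici (0 : ℝ) ×ˢ Ici (0 : ℝ)) volume := hint.integrableOn
  rw [Measure.volume_eq_prod] at hion ⊢
  rw [setIntegral_prod _ hion]
  rfl

/-- The triples of indices with XOR zero are parametrised by their first two members. -/
private def idx : ℕ × ℕ ≃ DyadicTriangular.Triple where
  toFun n := ⟨(n.1, n.2, n.1 ^^^ n.2), by
    change n.1 ^^^ n.2 ^^^ (n.1 ^^^ n.2) = 0
    exact Nat.xor_self _⟩
  invFun m := (m.1.1, m.1.2.1)
  left_inv n := rfl
  right_inv m := by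
    obtain ⟨⟨a, b, c⟩, hm⟩ := m
    apply Subtype.ext
    change (a, b, a ^^^ b) = (a, b, c)
    have h1 : a ^^^ b = c := by
      have hm' : a ^^^ b ^^^ c = 0 := hm
      have h2 : a ^^^ b ^^^ c ^^^ c = 0 ^^^ c := by rw [hm']
      rwa [Nat.xor_assoc, Nat.xor_self, Nat.xor_zero, Nat.zero_xor] at h2
    rw [h1]

/-- **Q2 has a positive answer.**  There is a constant `C` such that for all real bounded
compactly supported measurable `F₀, F₁, F₂`: in every `A_k` (whose triples have indices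
`n₀, n₁, n₀ ⊕ n₁`) only finitely many `L_I` are nonzero, and
`|∑_{k ∈ S} ε_k ∑_{I ∈ A_k} L_I(F₀,F₁,F₂)| ≤ C ‖F₀‖₃ ‖F₁‖₃ ‖F₂‖₃`
for every finite set `S` of scales and all real `|ε_k| ≤ 1`. -/
theorem result : ∃ C : ℝ, ∀ F₀ F₁ F₂ : ℝ → ℝ → ℝ, Nice F₀ → Nice F₁ → Nice F₂ →
    (∀ k : ℤ, {n : ℕ × ℕ | L F₀ F₁ F₂ k n.1 n.2 (n.1 ^^^ n.2) ≠ 0}.Finite) ∧
    ∀ (S : Finset ℤ) (ε : ℤ → ℝ), (∀ k ∈ S, |ε k| ≤ 1) →
      |∑ k ∈ S, ε k * ∑' n : ℕ × ℕ, L F₀ F₁ F₂ k n.1 n.2 (n.1 ^^^ n.2)| ≤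
        C * (norm3 F₀ * norm3 F₁ * norm3 F₂) := by
  obtain ⟨C, hC⟩ := DyadicTriangular.result
  refine ⟨C, fun F₀ F₁ F₂ h₀ h₁ h₂ => ?_⟩
  obtain ⟨hfin, hform, -⟩ := hC (Function.uncurry F₀) (Function.uncurry F₁) (Function.uncurry F₂)
    h₀.1 h₁.1 h₂.1 (by
      obtain ⟨-, M0, b0⟩ := h₀
      obtain ⟨-, M1, b1⟩ := h₁
      obtain ⟨-, M2, b2⟩ := h₂
      exact ⟨max M0 (max M1 M2), fun p => ⟨(b0 p.1 p.2).1.trans (le_max_left _ _),
        (b1 p.1 p.2).1.trans ((le_max_left _ _).trans (le_max_right _ _)),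
        (b2 p.1 p.2).1.trans ((le_max_right _ _).trans (le_max_right _ _))⟩⟩)
    (nice_compact h₀) (nice_compact h₁) (nice_compact h₂)
  have key : ∀ (k : ℤ) (n : ℕ × ℕ), L F₀ F₁ F₂ k n.1 n.2 (n.1 ^^^ n.2) =
      DyadicTriangular.L (Function.uncurry F₀) (Function.uncurry F₁) (Function.uncurry F₂) k
        (idx n) := fun k n => L_eq h₀ h₁ h₂ k (idx n)
  refine ⟨fun k => ?_, fun S ε hε => ?_⟩
  · refine ((hfin k).preimage (f := idx) idx.injective.injOn).subset ?_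
    intro n hn
    change DyadicTriangular.L _ _ _ k (idx n) ≠ 0
    rw [← key]
    exact hn
  · rw [norm3_eq h₀, norm3_eq h₁, norm3_eq h₂]
    refine le_trans (le_of_eq ?_) (hform S ε hε)
    unfold DyadicTriangular.form
    congr 1
    refine Finset.sum_congr rfl fun k _ => ?_
    congr 1
    rw [← Equiv.tsum_eq idx]
    exact tsum_congr fun n => key k n

end Vale.Agent.Results.P075.DyadicIterated
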