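import Vale.Agent.Results.P075.DyadicTriangular

/-!
# P075, Q2: the dyadic triangular Hilbert form, cyclic formulation

Variables `x : Fin 3 → ℝ`, functions `F : Fin 3 → (ℝ × ℝ → ℝ)`, indices modulo three, Mathlib's
`eLpNorm` for the norms of `L^3([0,∞)^2)`.
-/

namespace Vale.Agent.Results.P075.DyadicModelCyclic

open MeasureTheory

/-- The dyadic interval of length `2^k` and index `n`. -/
def dyadic (k : ℤ) (n : ℕ) : Set ℝ := Set.Ico ((2 : ℝ) ^ k * n) ((2 : ℝ) ^ k * (n + 1))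

/-- `h_I` for `I = dyadic k n`: indicator of the left half minus indicator of the right half. -/
noncomputable def haar (k : ℤ) (n : ℕ) (x : ℝ) : ℝ :=
  (Set.Ico ((2 : ℝ) ^ k * n) ((2 : ℝ) ^ k * (n + 1 / 2))).indicator (fun _ => 1) x -
    (Set.Ico ((2 : ℝ) ^ k * (n + 1 / 2)) ((2 : ℝ) ^ k * (n + 1))).indicator (fun _ => 1) x

/-- `L_I(F_0,F_1,F_2)` for the triple `I` of intervals of scale `k` with indices
`n 0, n 1, n 2`: `2^{-k} ∫_{I_0×I_1×I_2} F_0(x_0,x_1) F_1(x_1,x_2) F_2(x_2,x_0) ∏_v h_{I_v}(x_v)`. -/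
noncomputable def cell (F : Fin 3 → ℝ × ℝ → ℝ) (k : ℤ) (n : Fin 3 → ℕ) : ℝ :=
  (2 : ℝ) ^ (-k) * ∫ x in {x : Fin 3 → ℝ | ∀ v, x v ∈ dyadic k (n v)},
    (∏ v, F v (x v, x (v + 1))) * ∏ v, haar k (n v) (x v)

/-- `Λ^d_{S,ε}(F_0,F_1,F_2)`: sum over `k ∈ S` of `ε_k` times the (finite) sum of the `L_I` over
the triples of indices with bitwise XOR zero. -/
noncomputable def form (S : Finset ℤ) (ε : ℤ → ℝ) (F : Fin 3 → ℝ × ℝ → ℝ) : ℝ :=
  ∑ k ∈ S, ε k * ∑ᶠ n ∈ {n : Fin 3 → ℕ | n 0 ^^^ n 1 ^^^ n 2 = 0}, cell F k n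

/-- The equivalence of index triples with the ones of the first formulation. -/
private def idx : {n : Fin 3 → ℕ // n 0 ^^^ n 1 ^^^ n 2 = 0} ≃ DyadicTriangular.Triple where
  toFun n := ⟨(n.1 0, n.1 1, n.1 2), n.2⟩
  invFun m := ⟨![m.1.1, m.1.2.1, m.1.2.2], m.2⟩
  left_inv n := by
    ext v
    fin_cases v <;> rfl
  right_inv m := rfl

private theorem haar_eq (k : ℤ) (n : ℕ) (x : ℝ) : haar k n x = DyadicTriangular.hfun k n x := by
  unfold haar DyadicTriangular.hfun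
  by_cases h1 : x ∈ Set.Ico ((2 : ℝ) ^ k * n) ((2 : ℝ) ^ k * (n + 1 / 2))
  · have h2 : x ∉ Set.Ico ((2 : ℝ) ^ k * (n + 1 / 2)) ((2 : ℝ) ^ k * (n + 1)) :=
      fun h => absurd h.1 (not_le.2 h1.2)
    rw [Set.indicator_of_mem h1, Set.indicator_of_notMem h2, if_pos h1, sub_zero]
  · rw [Set.indicator_of_notMem h1, if_neg h1]
    by_cases h2 : x ∈ Set.Ico ((2 : ℝ) ^ k * (n + 1 / 2)) ((2 : ℝ) ^ k * (n + 1))
    · rw [Set.indicator_of_mem h2, if_pos h2, zero_sub]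
    · rw [Set.indicator_of_notMem h2, if_neg h2, sub_zero]

/-- `x ↦ (x 0, x 1, x 2)` -/
private def eqv : (Fin 3 → ℝ) ≃ᵐ ℝ × ℝ × ℝ :=
  (MeasurableEquiv.piFinSuccAbove (fun _ : Fin 3 => ℝ) 0).trans
    ((MeasurableEquiv.refl ℝ).prodCongr MeasurableEquiv.finTwoArrow)

private theorem eqv_apply (x : Fin 3 → ℝ) : eqv x = (x 0, x 1, x 2) := rfl

private theorem eqv_mp : MeasurePreserving eqv volume volume :=
  (volume_preserving_piFinSuccAbove (fun _ : Fin 3 => ℝ) 0).trans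
    ((MeasurePreserving.id (volume : Measure ℝ)).prod (volume_preserving_finTwoArrow ℝ))

private theorem cell_eq (F : Fin 3 → ℝ × ℝ → ℝ) (k : ℤ)
    (n : {n : Fin 3 → ℕ // n 0 ^^^ n 1 ^^^ n 2 = 0}) :
    cell F k n.1 = DyadicTriangular.L (F 0) (F 1) (F 2) k (idx n) := by
  unfold cell DyadicTriangular.L
  congr 1
  have h1 := eqv_mp.setIntegral_preimage_emb eqv.measurableEmbedding
    (fun x : ℝ × ℝ × ℝ => F 0 (x.1, x.2.1) * F 1 (x.2.1, x.2.2) * F 2 (x.2.2, x.1) *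
        (DyadicTriangular.hfun k (n.1 0) x.1 * DyadicTriangular.hfun k (n.1 1) x.2.1 *
          DyadicTriangular.hfun k (n.1 2) x.2.2))
    (DyadicTriangular.interval k (n.1 0) ×ˢ DyadicTriangular.interval k (n.1 1) ×ˢ
      DyadicTriangular.interval k (n.1 2))
  refine Eq.trans ?_ h1
  have h2 : eqv ⁻¹' (DyadicTriangular.interval k (n.1 0) ×ˢ DyadicTriangular.interval k (n.1 1) ×ˢ
      DyadicTriangular.interval k (n.1 2)) = {x : Fin 3 → ℝ | ∀ v, x v ∈ dyadic k (n.1 v)} := by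
    ext x
    simp only [Set.mem_preimage, eqv_apply, Set.mem_prod, Set.mem_ofPred_eq, Fin.forall_fin_succ,
      Fin.forall_fin_zero]
    constructor
    · rintro ⟨a, b, c⟩
      exact ⟨a, b, c, trivial⟩
    · rintro ⟨a, b, c, _⟩
      exact ⟨a, b, c⟩
  rw [h2]
  congr 1
  funext x
  rw [eqv_apply]
  simp only [Fin.prod_univ_three, haar_eq]
  rfl

private theorem sum_eq (F : Fin 3 → ℝ × ℝ → ℝ) (k : ℤ)
    (h : (Function.support fun n : DyadicTriangular.Triple =>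
      DyadicTriangular.L (F 0) (F 1) (F 2) k n).Finite) :
    ∑ᶠ n ∈ {n : Fin 3 → ℕ | n 0 ^^^ n 1 ^^^ n 2 = 0}, cell F k n =
      ∑' n : DyadicTriangular.Triple, DyadicTriangular.L (F 0) (F 1) (F 2) k n := by
  rw [tsum_eq_finsum h, ← finsum_comp_equiv idx, ← finsum_set_coe_eq_finsum_mem]
  exact finsum_congr fun n => cell_eq F k n

private theorem norm_eq {F : ℝ × ℝ → ℝ} (hm : Measurable F) (hM : ∃ M : ℝ, ∀ p, |F p| ≤ M)
    (hs : HasCompactSupport F) :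
    eLpNorm F 3 (volume.restrict (Set.Ici 0 ×ˢ Set.Ici 0)) =
      ENNReal.ofReal (DyadicTriangular.norm3 F) := by
  obtain ⟨M, hM⟩ := hM
  have h1 : MemLp F 3 (volume.restrict (Set.Ici (0 : ℝ) ×ˢ Set.Ici (0 : ℝ))) :=
    hs.memLp_of_bound hm.aestronglyMeasurable M (Filter.Eventually.of_forall hM)
  rw [h1.eLpNorm_eq_integral_rpow_norm (by norm_num) (by norm_num)]
  unfold DyadicTriangular.norm3
  congr 1
  have h2 : (3 : ENNReal).toReal = 3 := by norm_num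
  rw [h2, one_div]
  congr 1
  refine integral_congr_ae (Filter.Eventually.of_forall fun p => ?_)
  change ‖F p‖ ^ (3 : ℝ) = |F p| ^ 3
  rw [Real.norm_eq_abs]
  exact_mod_cast Real.rpow_natCast |F p| 3

/-- **The dyadic triangular Hilbert form is bounded** on `L^3 × L^3 × L^3`, uniformly in the
finite set `S` of scales and in the coefficients `|ε_k| ≤ 1`; on every scale only finitely many
of the `L_I` are nonzero. -/
theorem result : ∃ C : NNReal, ∀ F : Fin 3 → ℝ × ℝ → ℝ, (∀ v, Measurable (F v)) →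
    (∀ v, ∃ M : ℝ, ∀ p, |F v p| ≤ M) → (∀ v, HasCompactSupport (F v)) →
    (∀ k : ℤ, {n : Fin 3 → ℕ | n 0 ^^^ n 1 ^^^ n 2 = 0 ∧ cell F k n ≠ 0}.Finite) ∧
    ∀ (S : Finset ℤ) (ε : ℤ → ℝ), (∀ k, |ε k| ≤ 1) →
      ‖form S ε F‖ₑ ≤ C * ∏ v, eLpNorm (F v) 3 (volume.restrict (Set.Ici 0 ×ˢ Set.Ici 0)) := by
  obtain ⟨C, hC⟩ := DyadicTriangular.result
  refine ⟨(max C 0).toNNReal, fun F hm hM hs => ?_⟩
  obtain ⟨hfin, hform, -⟩ := hC (F 0) (F 1) (F 2) (hm 0) (hm 1) (hm 2) (by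
      obtain ⟨M0, h0⟩ := hM 0
      obtain ⟨M1, h1⟩ := hM 1
      obtain ⟨M2, h2⟩ := hM 2
      exact ⟨max M0 (max M1 M2), fun p => ⟨(h0 p).trans (le_max_left _ _),
        (h1 p).trans ((le_max_left _ _).trans (le_max_right _ _)),
        (h2 p).trans ((le_max_right _ _).trans (le_max_right _ _))⟩⟩) (hs 0) (hs 1) (hs 2)
  refine ⟨fun k => ?_, fun S ε hε => ?_⟩
  · refine ((hfin k).image fun m => (idx.symm m).1).subset ?_
    rintro n ⟨hn, hne⟩
    refine ⟨idx ⟨n, hn⟩, ?_, ?_⟩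
    · rw [Function.mem_support, ← cell_eq F k ⟨n, hn⟩]
      exact hne
    · change (idx.symm (idx ⟨n, hn⟩)).1 = n
      rw [Equiv.symm_apply_apply]
  · have h1 : form S ε F = DyadicTriangular.form S ε (F 0) (F 1) (F 2) := by
      unfold form DyadicTriangular.form
      exact Finset.sum_congr rfl fun k _ => by rw [sum_eq F k (hfin k)]
    have hn : ∀ v, 0 ≤ DyadicTriangular.norm3 (F v) := fun v =>
      Real.rpow_nonneg (integral_nonneg fun p => by positivity) _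
    rw [Fin.prod_univ_three, norm_eq (hm 0) (hM 0) (hs 0), norm_eq (hm 1) (hM 1) (hs 1),
      norm_eq (hm 2) (hM 2) (hs 2), ← ENNReal.ofReal_mul (hn 0),
      ← ENNReal.ofReal_mul (mul_nonneg (hn 0) (hn 1)), Real.enorm_eq_ofReal_abs, h1]
    have h2 : ((max C 0).toNNReal : ENNReal) = ENNReal.ofReal (max C 0) := rfl
    rw [h2, ← ENNReal.ofReal_mul (le_max_right _ _)]
    refine ENNReal.ofReal_le_ofReal ((hform S ε fun k _ => hε k).trans ?_)
    exact mul_le_mul_of_nonneg_right (le_max_left _ _)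
      (mul_nonneg (mul_nonneg (hn 0) (hn 1)) (hn 2))

end Vale.Agent.Results.P075.DyadicModelCyclic
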