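import Vale.Agent.Lib.P075.Base
import Vale.Agent.Lib.P075.Discrete
import Vale.Agent.Lib.P075.Final
import Vale.Agent.Lib.P075.LITendsto

/-!
# P075, Q2: the dyadic triangular Hilbert transform is bounded
-/

namespace Vale.Agent.Results.P075.DyadicTriangular

open MeasureTheory Vale.Agent.P075

/-- The dyadic interval `[2^k n, 2^k (n+1))`. -/
def interval (k : ℤ) (n : ℕ) : Set ℝ := Set.Ico ((2 : ℝ) ^ k * n) ((2 : ℝ) ^ k * (n + 1))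

/-- `h_I` for `I = interval k n`: `1` on the left half of `I`, `-1` on the right half, `0` off
`I`. -/
noncomputable def hfun (k : ℤ) (n : ℕ) (x : ℝ) : ℝ :=
  if x ∈ Set.Ico ((2 : ℝ) ^ k * n) ((2 : ℝ) ^ k * (n + 1 / 2)) then 1
  else if x ∈ Set.Ico ((2 : ℝ) ^ k * (n + 1 / 2)) ((2 : ℝ) ^ k * (n + 1)) then -1 else 0

/-- The index triples `(n₀, n₁, n₂)` with bitwise XOR zero; with a scale `k` they index `A_k`. -/
abbrev Triple : Type := {n : ℕ × ℕ × ℕ // n.1 ^^^ n.2.1 ^^^ n.2.2 = 0}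

/-- The form `L_I(F₀, F₁, F₂)` of the triple `I = (I₀, I₁, I₂)` of scale `k` with indices `n`. -/
noncomputable def L (F₀ F₁ F₂ : ℝ × ℝ → ℝ) (k : ℤ) (n : Triple) : ℝ :=
  (2 : ℝ) ^ (-k) *
    ∫ x : ℝ × ℝ × ℝ in interval k n.1.1 ×ˢ interval k n.1.2.1 ×ˢ interval k n.1.2.2,
      F₀ (x.1, x.2.1) * F₁ (x.2.1, x.2.2) * F₂ (x.2.2, x.1) *
        (hfun k n.1.1 x.1 * hfun k n.1.2.1 x.2.1 * hfun k n.1.2.2 x.2.2)

/-- The form `Λ^d_{S,ε}(F₀, F₁, F₂) = ∑_{k ∈ S} ε_k ∑_{I ∈ A_k} L_I(F₀, F₁, F₂)`. -/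
noncomputable def form (S : Finset ℤ) (ε : ℤ → ℝ) (F₀ F₁ F₂ : ℝ × ℝ → ℝ) : ℝ :=
  ∑ k ∈ S, ε k * ∑' n : Triple, L F₀ F₁ F₂ k n

/-- The norm of `L^3([0,∞)^2)`. -/
noncomputable def norm3 (F : ℝ × ℝ → ℝ) : ℝ :=
  (∫ p in Set.Ici (0 : ℝ) ×ˢ Set.Ici (0 : ℝ), |F p| ^ 3) ^ ((1 : ℝ) / 3)

theorem discreteBound : DiscreteBound :=
  ⟨1920, by norm_num, fun f₀ f₁ f₂ K => discrete_bound_of f₀ f₁ f₂
    (fun _ _ _ A B C => one_step A B C) (fun _ _ _ R hR => psi_nonneg R hR)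
    (fun _ _ _ _ _ _ e R => psi_reindex e R) (fun _ _ _ _ A B C => pot3_one A B C) K⟩

/-- There is a constant `C` such that for all measurable bounded compactly supported
`F₀, F₁, F₂`: on every scale only finitely many triples have a nonzero form; all forms
`Λ^d_{S,ε}` with `S` finite and `|ε_k| ≤ 1` are bounded by `C ‖F₀‖₃ ‖F₁‖₃ ‖F₂‖₃`; and so is even
the sum of the absolute values of all the `L_I` with scale in `S`. -/
theorem result : ∃ C : ℝ, ∀ F₀ F₁ F₂ : ℝ × ℝ → ℝ,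
    Measurable F₀ → Measurable F₁ → Measurable F₂ →
    (∃ M : ℝ, ∀ p, |F₀ p| ≤ M ∧ |F₁ p| ≤ M ∧ |F₂ p| ≤ M) →
    HasCompactSupport F₀ → HasCompactSupport F₁ → HasCompactSupport F₂ →
    (∀ k : ℤ, (Function.support fun n : Triple => L F₀ F₁ F₂ k n).Finite) ∧
    (∀ (S : Finset ℤ) (ε : ℤ → ℝ), (∀ k ∈ S, |ε k| ≤ 1) →
      |form S ε F₀ F₁ F₂| ≤ C * (norm3 F₀ * norm3 F₁ * norm3 F₂)) ∧
    (∀ S : Finset ℤ,
      ∑ k ∈ S, ∑' n : Triple, |L F₀ F₁ F₂ k n| ≤ C * (norm3 F₀ * norm3 F₁ * norm3 F₂)) := by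
  have hAB : AvBound := fun N F hF M hM hS T => av_bound N F hF M hM hS T
  have hLT : LITendsto := fun F₀ F₁ F₂ h₀ h₁ h₂ M b₀ b₁ b₂ k m n =>
    LI_tendsto F₀ F₁ F₂ h₀ h₁ h₂ M b₀ b₁ b₂ k m n
  obtain ⟨C₁, _, hadd⟩ := final_additive discreteBound hAB hLT
  obtain ⟨C, _, hmul⟩ := final_mult discreteBound hAB hLT
  refine ⟨C, ?_⟩
  intro F₀ F₁ F₂ m₀ m₁ m₂ hM s₀ s₁ s₂
  have hfin : ∀ k : ℤ, (Function.support fun n : Triple => L F₀ F₁ F₂ k n).Finite := fun k =>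
    (hadd {k} F₀ F₁ F₂ m₀ m₁ m₂ hM s₀ s₁ s₂).1 k (Finset.mem_singleton_self k)
  have habs : ∀ S : Finset ℤ,
      ∑ k ∈ S, ∑' n : Triple, |L F₀ F₁ F₂ k n| ≤ C * (norm3 F₀ * norm3 F₁ * norm3 F₂) :=
    fun S => hmul S F₀ F₁ F₂ m₀ m₁ m₂ hM s₀ s₁ s₂
  refine ⟨hfin, ?_, habs⟩
  intro S ε hε
  refine le_trans ?_ (habs S)
  unfold form
  refine (Finset.abs_sum_le_sum_abs _ _).trans (Finset.sum_le_sum fun k hk => ?_)
  have hsum : Summable fun n : Triple => |L F₀ F₁ F₂ k n| := by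
    apply summable_of_hasFiniteSupport
    refine (hfin k).subset fun n hn => ?_
    simpa using hn
  have h1 : |∑' n : Triple, L F₀ F₁ F₂ k n| ≤ ∑' n : Triple, |L F₀ F₁ F₂ k n| := by
    have := norm_tsum_le_tsum_norm (f := fun n : Triple => L F₀ F₁ F₂ k n) hsum
    simpa only [Real.norm_eq_abs] using this
  rw [abs_mul]
  calc |ε k| * |∑' n : Triple, L F₀ F₁ F₂ k n| ≤ 1 * ∑' n : Triple, |L F₀ F₁ F₂ k n| :=
        mul_le_mul (hε k hk) h1 (abs_nonneg _) zero_le_one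
    _ = _ := one_mul _

end Vale.Agent.Results.P075.DyadicTriangular
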